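import Vale.Agent.Lib.P209.Subdiv

/-- Let `n ≥ 1` and `k ≤ 2 ^ n`. If the positive capacities `Rs i` satisfy `Rs i < R` for all `i` and
the two ball condition `Rs i + Rs j < R` for all `i ≠ j`, then the closed balls `B²ⁿ(Rs i)` embed
symplectically, with pairwise disjoint images, into the open ball of capacity `R`.
In this range the two ball obstruction is the only obstruction. -/
theorem Vale.Agent.Results.P209.A_few_balls.result {n k : ℕ} (hn : 0 < n) (hk : k ≤ 2 ^ n) {R : ℝ}
    (Rs : Fin k → ℝ) (hpos : ∀ i, 0 < Rs i) (hone : ∀ i, Rs i < R)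
    (hpair : ∀ i j, i ≠ j → Rs i + Rs j < R) : Vale.Agent.Lib.P209.BallPacking n R Rs := by
  obtain ⟨m, rfl⟩ : ∃ m, n = m + 1 := ⟨n - 1, by omega⟩
  exact Vale.Agent.Lib.P209.packing_of_card_le hk hpos hone (fun i j hij => hpair i j hij)
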