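import Vale.Agent.Lib.P209.Mixed

/-- For every `n ≥ 1` and every `ε > 0` there is a `δ > 0`, depending only on `n` and `ε`, with the
following property. Let `R > 0` and let `Rs i` be positive capacities with `Rs i < R`, with
`Rs i + Rs j < R` for `i ≠ j`, and with `∑ i, Rs i ^ n ≤ (1 - ε) * R ^ n`. If at most `2 ^ n` of the
capacities exceed `δ * R`, then the closed balls `B²ⁿ(Rs i)` embed symplectically, with pairwise
disjoint images, into the open ball of capacity `R`.
In particular (no capacity above `δ * R`) balls of arbitrary unequal small capacities can fill any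
fraction of the volume of the ball. -/
theorem Vale.Agent.Results.P209.B_mixed_dust.result {n : ℕ} (hn : 0 < n) {ε : ℝ} (hε : 0 < ε) :
    ∃ δ : ℝ, 0 < δ ∧ ∀ (k : ℕ) (R : ℝ) (Rs : Fin k → ℝ), 0 < R → (∀ i, 0 < Rs i) →
      (∀ i, Rs i < R) → (∀ i j, i ≠ j → Rs i + Rs j < R) →
      ∑ i, Rs i ^ n ≤ (1 - ε) * R ^ n →
      (Finset.univ.filter fun i => δ * R < Rs i).card ≤ 2 ^ n →
      Vale.Agent.Lib.P209.BallPacking n R Rs := by
  obtain ⟨m, rfl⟩ : ∃ m, n = m + 1 := ⟨n - 1, by omega⟩
  obtain ⟨δ, hδ, h⟩ := Vale.Agent.Lib.P209.mixed_packing (m := m) (e := min ε 1)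
    (lt_min hε one_pos) (min_le_right _ _)
  refine ⟨δ, hδ, fun k R Rs hR hpos hone hpair hvol hcard => ?_⟩
  apply h k R Rs hR hpos hone hpair _ hcard
  refine le_trans hvol ?_
  apply mul_le_mul_of_nonneg_right _ (by positivity)
  linarith [min_le_left ε 1]
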